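import Vale.Agent.P226.H112.Upper
import Vale.Agent.P226.H112.Gap

/-!
# P226: the Gaussian propeller conjecture and the sharp constant for kernel clustering

The upper bound `9/(8π)` for every measurable partition (up to Gaussian null sets) of `ℝ^d` into
`k` cells, for all `d` and `k`; the fact that `9/(8π)` is the maximum for `d ≥ 2`, `k ≥ 3`; and the
discrete form of the conjecture: for positive semidefinite matrices, the semidefinite relaxation
of clustering into `k ≥ 3` sets loses at most the factor `8π/9`, and this factor is sharp for every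
number of clusters.
-/

open MeasureTheory ProbabilityTheory

namespace Vale.Agent.Results.P226.KernelClustering

/-- The propeller conjecture, and the sharp constant for kernel clustering. -/
theorem result :
    ((∀ (d k : ℕ) (A : Fin k → Set (EuclideanSpace ℝ (Fin d))),
      (∀ i, NullMeasurableSet (A i) (stdGaussian (EuclideanSpace ℝ (Fin d)))) →
      (Pairwise fun i j => AEDisjoint (stdGaussian (EuclideanSpace ℝ (Fin d))) (A i) (A j)) →
      (∀ᵐ x ∂(stdGaussian (EuclideanSpace ℝ (Fin d))), x ∈ ⋃ i, A i) →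
      ∑ i, ‖∫ x in A i, x ∂(stdGaussian (EuclideanSpace ℝ (Fin d)))‖ ^ 2 ≤ 9 / (8 * Real.pi)) ∧
    (∀ d k : ℕ, 2 ≤ d → 3 ≤ k →
      IsGreatest {r : ℝ | ∃ A : Fin k → Set (EuclideanSpace ℝ (Fin d)),
        (∀ i, MeasurableSet (A i)) ∧ (Pairwise fun i j => Disjoint (A i) (A j)) ∧
        ⋃ i, A i = Set.univ ∧
        r = ∑ i, ‖∫ x in A i, x ∂(stdGaussian (EuclideanSpace ℝ (Fin d)))‖ ^ 2}
        (9 / (8 * Real.pi)))) ∧
    (∀ (n : ℕ) (a b : Matrix (Fin n) (Fin n) ℝ), a.PosSemidef → b.PosSemidef →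
      (∀ i, b i i ≤ 1) →
      ∃ s : Fin n → Fin 3, ∑ i, ∑ j, a i j * b i j ≤
        8 * Real.pi / 9 * ∑ i, ∑ j, (if s i = s j then a i j else 0)) ∧
    (∀ K : ℝ, K < 8 * Real.pi / 9 →
      ∃ (n : ℕ) (a b : Matrix (Fin n) (Fin n) ℝ), a.PosSemidef ∧ (∀ i, ∑ j, a i j = 0) ∧
        b.PosSemidef ∧ (∀ i, b i i = 1) ∧
        ∀ (k : ℕ) (s : Fin n → Fin k),
          K * ∑ i, ∑ j, (if s i = s j then a i j else 0) < ∑ i, ∑ j, a i j * b i j) :=
  ⟨Vale.Agent.P226.final_of_isEmpty_bad fun _ => inferInstance,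
    fun _ _ _ ha hb h1 => Vale.Agent.P226.H112.cluster_three ha hb h1,
    fun _ hK => Vale.Agent.P226.H112.exists_gap hK⟩

end Vale.Agent.Results.P226.KernelClustering
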