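import Vale.Agent.P226.H700.Final

/-!
# P226: the Gaussian propeller conjecture with its equality case

The upper bound `9/(8π)` for every measurable partition (up to Gaussian null sets) of `ℝ^d` into
`k` cells, for all `d` and `k`; the fact that `9/(8π)` is the maximum for `d ≥ 2`, `k ≥ 3`; and the
rigidity statement: a partition attains `9/(8π)` if and only if it is, up to null sets, a propeller,
that is, three of its cells are the three `120°` sectors of a plane times the orthogonal complement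
and all the other cells are null.
-/

open MeasureTheory ProbabilityTheory
open scoped RealInnerProductSpace

namespace Vale.Agent.Results.P226.PropellerRigidity

/-- The propeller conjecture, and uniqueness of the propeller. -/
theorem result :
    ((∀ (d k : ℕ) (A : Fin k → Set (EuclideanSpace ℝ (Fin d))),
      (∀ i, NullMeasurableSet (A i) (stdGaussian (EuclideanSpace ℝ (Fin d)))) →
      (Pairwise fun i j => AEDisjoint (stdGaussian (EuclideanSpace ℝ (Fin d))) (A i) (A j)) →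
      (∀ᵐ x ∂(stdGaussian (EuclideanSpace ℝ (Fin d))), x ∈ ⋃ i, A i) →
      ∑ i, ‖∫ x in A i, x ∂(stdGaussian (EuclideanSpace ℝ (Fin d)))‖ ^ 2 ≤ 9 / (8 * Real.pi)) ∧
    (∀ d k : ℕ, 2 ≤ d → 3 ≤ k →
      IsGreatest {r : ℝ | ∃ A : Fin k → Set (EuclideanSpace ℝ (Fin d)),
        (∀ i, MeasurableSet (A i)) ∧ (Pairwise fun i j => Disjoint (A i) (A j)) ∧
        ⋃ i, A i = Set.univ ∧
        r = ∑ i, ‖∫ x in A i, x ∂(stdGaussian (EuclideanSpace ℝ (Fin d)))‖ ^ 2}
        (9 / (8 * Real.pi)))) ∧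
    (∀ (d k : ℕ) (A : Fin k → Set (EuclideanSpace ℝ (Fin d))),
      (∀ i, NullMeasurableSet (A i) (stdGaussian (EuclideanSpace ℝ (Fin d)))) →
      (Pairwise fun i j => AEDisjoint (stdGaussian (EuclideanSpace ℝ (Fin d))) (A i) (A j)) →
      (∀ᵐ x ∂(stdGaussian (EuclideanSpace ℝ (Fin d))), x ∈ ⋃ i, A i) →
      (∑ i, ‖∫ x in A i, x ∂(stdGaussian (EuclideanSpace ℝ (Fin d)))‖ ^ 2 = 9 / (8 * Real.pi) ↔
        ∃ (u : Fin 3 → EuclideanSpace ℝ (Fin d)) (f : Fin 3 → Fin k),
          (∀ j, ‖u j‖ = 1) ∧ ∑ j, u j = 0 ∧ Function.Injective f ∧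
          (∀ j, A (f j) =ᵐ[stdGaussian (EuclideanSpace ℝ (Fin d))]
            {x | ∀ l, ⟪u l, x⟫ ≤ ⟪u j, x⟫}) ∧
          ∀ i, i ∉ Set.range f → stdGaussian (EuclideanSpace ℝ (Fin d)) (A i) = 0)) :=
  ⟨Vale.Agent.P226.final_of_isEmpty_bad fun _ => inferInstance,
    fun _ _ _ hm hd hc => Vale.Agent.P226.Eqc.eq_iff hm hd hc⟩

end Vale.Agent.Results.P226.PropellerRigidity
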