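import Vale.Agent.P226.H765.Sharp

/-!
# P226: the Gaussian propeller conjecture and its sharp stability

(1) The upper bound `9/(8π)` for every measurable partition (up to Gaussian null sets) of `ℝ^d` into
`k` cells, for all `d` and `k`, and the fact that `9/(8π)` is the maximum for `d ≥ 2`, `k ≥ 3`.

(2) Stability with one universal constant `C`, for all `d` and `k`: if `D` is the deficit of a
partition then there is a propeller such that three of the cells agree with its three `120°` sectors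
up to Gaussian measure `C √D`, and all the other cells together have measure at most `C √D`.

(3) The exponent `1/2` is optimal, for all `d` and `k`: there are partitions with arbitrarily small
positive deficit `D` whose distance, in the sense of (2), to every propeller is at least `√D / 5`.
-/

open MeasureTheory ProbabilityTheory
open scoped RealInnerProductSpace

namespace Vale.Agent.Results.P226.PropellerStability

/-- The sum of the squared norms of the Gaussian first moments of the cells. -/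
noncomputable def F {d k : ℕ} (A : Fin k → Set (EuclideanSpace ℝ (Fin d))) : ℝ :=
  ∑ i, ‖∫ x in A i, x ∂(stdGaussian (EuclideanSpace ℝ (Fin d)))‖ ^ 2

/-- A measurable partition up to Gaussian null sets. -/
def AEPartition {d k : ℕ} (A : Fin k → Set (EuclideanSpace ℝ (Fin d))) : Prop :=
  (∀ i, NullMeasurableSet (A i) (stdGaussian (EuclideanSpace ℝ (Fin d)))) ∧
    (Pairwise fun i j => AEDisjoint (stdGaussian (EuclideanSpace ℝ (Fin d))) (A i) (A j)) ∧
    ∀ᵐ x ∂(stdGaussian (EuclideanSpace ℝ (Fin d))), x ∈ ⋃ i, A i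

/-- An exact partition into Borel sets. -/
def BorelPartition {d k : ℕ} (A : Fin k → Set (EuclideanSpace ℝ (Fin d))) : Prop :=
  (∀ i, MeasurableSet (A i)) ∧ (Pairwise fun i j => Disjoint (A i) (A j)) ∧ ⋃ i, A i = Set.univ

/-- Three unit vectors with sum zero; they determine a propeller. -/
def Tripod {d : ℕ} (u : Fin 3 → EuclideanSpace ℝ (Fin d)) : Prop :=
  (∀ j, ‖u j‖ = 1) ∧ ∑ j, u j = 0

/-- The cells `A (f 0), A (f 1), A (f 2)` agree with the three sectors of the propeller of `u` up to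
measure `r`, and the union of all other cells has measure at most `r`. -/
def Close {d k : ℕ} (A : Fin k → Set (EuclideanSpace ℝ (Fin d)))
    (u : Fin 3 → EuclideanSpace ℝ (Fin d)) (f : Fin 3 → Fin k) (r : ℝ) : Prop :=
  (∀ j, (stdGaussian (EuclideanSpace ℝ (Fin d))).real
      (symmDiff (A (f j)) {x | ∀ l, ⟪u l, x⟫ ≤ ⟪u j, x⟫}) ≤ r) ∧
    (stdGaussian (EuclideanSpace ℝ (Fin d))).real (⋃ i ∈ (Set.range f)ᶜ, A i) ≤ r

/-- The propeller conjecture, and sharp stability of the propeller. -/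
theorem result :
    ((∀ (d k : ℕ) (A : Fin k → Set (EuclideanSpace ℝ (Fin d))), AEPartition A →
        F A ≤ 9 / (8 * Real.pi)) ∧
      ∀ d k : ℕ, 2 ≤ d → 3 ≤ k →
        IsGreatest {r : ℝ | ∃ A : Fin k → Set (EuclideanSpace ℝ (Fin d)),
          BorelPartition A ∧ r = F A} (9 / (8 * Real.pi))) ∧
    (∃ C : ℝ, 0 < C ∧ ∀ d k : ℕ, 2 ≤ d → 3 ≤ k →
      ∀ A : Fin k → Set (EuclideanSpace ℝ (Fin d)), AEPartition A →
        ∃ (u : Fin 3 → EuclideanSpace ℝ (Fin d)) (f : Fin 3 → Fin k),
          Tripod u ∧ Function.Injective f ∧ Close A u f (C * √(9 / (8 * Real.pi) - F A))) ∧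
    (∀ d k : ℕ, 2 ≤ d → 3 ≤ k → ∀ ε : ℝ, 0 < ε →
      ∃ A : Fin k → Set (EuclideanSpace ℝ (Fin d)), BorelPartition A ∧
        0 < 9 / (8 * Real.pi) - F A ∧ 9 / (8 * Real.pi) - F A < ε ∧
        ∀ (u : Fin 3 → EuclideanSpace ℝ (Fin d)) (f : Fin 3 → Fin k) (r : ℝ),
          Tripod u → Function.Injective f → Close A u f r →
            √(9 / (8 * Real.pi) - F A) / 5 ≤ r) := by
  obtain ⟨h1, h2⟩ := Vale.Agent.P226.final_of_isEmpty_bad fun _ => inferInstance
  refine ⟨⟨fun d k A hA => h1 d k A hA.1 hA.2.1 hA.2.2, fun d k hd hk => ?_⟩, ?_, ?_⟩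
  · have h3 := h2 d k hd hk
    have h4 : {r : ℝ | ∃ A : Fin k → Set (EuclideanSpace ℝ (Fin d)),
          BorelPartition A ∧ r = F A} = {r : ℝ | ∃ A : Fin k → Set (EuclideanSpace ℝ (Fin d)),
        (∀ i, MeasurableSet (A i)) ∧ (Pairwise fun i j => Disjoint (A i) (A j)) ∧
        ⋃ i, A i = Set.univ ∧
        r = ∑ i, ‖∫ x in A i, x ∂(stdGaussian (EuclideanSpace ℝ (Fin d)))‖ ^ 2} := by
      ext r
      constructor
      · rintro ⟨A, ⟨a, b, c⟩, e⟩
        exact ⟨A, a, b, c, e⟩
      · rintro ⟨A, a, b, c, e⟩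
        exact ⟨A, ⟨a, b, c⟩, e⟩
    rw [h4]
    exact h3
  · obtain ⟨C, hC, h⟩ := Vale.Agent.P226.S765.stab.{0}
    refine ⟨C, hC, fun d k hd hk A hA => ?_⟩
    obtain ⟨u, f, a, b, c, e, g⟩ := h (EuclideanSpace ℝ (Fin d)) k hk
      (by rw [finrank_euclideanSpace_fin]; exact hd) A hA.1 hA.2.1 hA.2.2
    exact ⟨u, f, ⟨a, b⟩, c, e, g⟩
  · intro d k hd hk ε hε
    obtain ⟨A, hA, h1, h2, h3⟩ := Vale.Agent.P226.S765.sharp (E := EuclideanSpace ℝ (Fin d)) hk
      (by rw [finrank_euclideanSpace_fin]; exact hd) hε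
    refine ⟨A, ⟨hA.meas, hA.disj, hA.cover⟩, h1, h2, fun u f r hu _ hr => ?_⟩
    have e1 : √(9 / (8 * Real.pi) - F A) / 5 = 1 / 5 * √(9 / (8 * Real.pi) - F A) := by ring
    rw [e1]
    rcases h3 u f hu.1 hu.2 with ⟨j, hj⟩ | hj
    · exact hj.trans (hr.1 j)
    · exact hj.trans hr.2

end Vale.Agent.Results.P226.PropellerStability
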